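import Vale.Agent.P280.H170.Sl2
import Vale.Agent.P280.H83.Api2

/-!
P280, plan N: COUNT, the `sl_2` lemma, (f1) and (f2) in the letters of `N/Defs`.
-/

open DirectSum Vale.Agent.P280.T Vale.Agent.P280.H127 Vale.Agent.P280.N

namespace Vale.Agent.P280.H170

section
variable {r : ℕ} {R : Type} [CommRing R] [Algebra ℂ R]
variable {𝒜 : ℕ × (Fin r → ℤ) → Submodule ℂ R} [GradedAlgebra 𝒜]

theorem low_wts {l : (Fin r → ℤ) →+ ℤ} {y : FP 𝒜} (hy : Low l y) :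
    ∀ m ∈ H587.wts 𝒜, l y.ν ≤ l m := by
  rintro m ⟨h, hh, hne⟩
  have h1 := hy 1 m h hh hne
  rwa [one_smul] at h1

theorem nu_mem (H : Hyp 𝒜) (y : FP 𝒜) : y.ν ∈ H587.wts 𝒜 := by
  obtain ⟨f, hf, hfy⟩ := exists_deg_one_ne H.hX.gen y.nv y.fix
  exact ⟨f, hf, fun h => hfy (by rw [h, map_zero])⟩

theorem low_eq (H : Hyp 𝒜) {l : (Fin r → ℤ) →+ ℤ} {y y' : FP 𝒜} (hy : Low l y) (hy' : Low l y') :
    l y'.ν = l y.ν :=
  le_antisymm (low_wts hy' _ (nu_mem H y)) (low_wts hy _ (nu_mem H y'))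

theorem pos_of_low (H : Hyp 𝒜) {l : (Fin r → ℤ) →+ ℤ} {y : FP 𝒜} (hy : Low l y) : Pos l y := by
  intro χ hχ
  have h1 := low_wts hy _ (H587.tangentWeight_mem H.hX y.nv y.fix hχ).2
  rw [map_add] at h1
  omega

theorem low_of_pos (H : Hyp 𝒜) {l : (Fin r → ℤ) →+ ℤ} {y : FP 𝒜} (hy : Pos l y) : Low l y :=
  H587.low_of_fixed H.hX y.nv y.fix hy

theorem pi_finite (H : Hyp 𝒜) (y : FP 𝒜) : {χ | y.Pi χ}.Finite := by
  have h1 : {χ | y.Pi χ} ⊆ (fun m => m - y.ν) '' H587.wts 𝒜 := by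
    intro χ hχ
    exact ⟨_, (H587.tangentWeight_mem H.hX y.nv y.fix hχ).2, by
      change y.ν + χ - y.ν = χ
      rw [add_sub_cancel_left]⟩
  exact ((finite_weights H.hX).image _).subset h1

theorem ne_zero_of_pi (H : Hyp 𝒜) {y : FP 𝒜} {χ : Fin r → ℤ} (hχ : y.Pi χ) : χ ≠ 0 := by
  rintro rfl
  exact H.iso y.q y.ν y.nv y.fix hχ

/-- `χ` and `-χ` are not both tangent weights at the same point. -/
theorem not_pi_neg (H : Hyp 𝒜) {y : FP 𝒜} {χ : Fin r → ℤ} (hχ : y.Pi χ) : ¬ y.Pi (-χ) := by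
  intro h
  have h1 := H.ind y.q y.ν χ (-χ) y.nv y.fix hχ h ⟨1, -1, one_ne_zero, by decide, by simp⟩
  have h2 : (2 : ℤ) • χ = 0 := by
    rw [two_smul]
    nth_rewrite 1 [h1]
    simp
  exact ne_zero_of_pi H hχ ((smul_eq_zero.1 h2).resolve_left two_ne_zero)

/-- **COUNT**, in the letters of plan N. -/
theorem low_count (H : Hyp 𝒜) {l : (Fin r → ℤ) →+ ℤ} {y y' : FP 𝒜} (hy : Low l y)
    (hy' : Low l y') (k : ℤ) :
    {χ | y.Pi χ ∧ l χ = k}.ncard = {χ | y'.Pi χ ∧ l χ = k}.ncard :=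
  ncard_const H.hX H.iso H.mult y.nv y.fix y'.nv y'.fix (low_wts hy) (low_eq H hy hy') k

/-- A value of `l` which is attained by one weight only is attained at all the points of the
lowest component, or at none. -/
theorem pi_of_count (H : Hyp 𝒜) {l : (Fin r → ℤ) →+ ℤ} {y y' : FP 𝒜} (hy : Low l y)
    (hy' : Low l y') {χ : Fin r → ℤ} (hχ : y.Pi χ) (huniq : ∀ ω, y'.Pi ω → l ω = l χ → ω = χ) :
    y'.Pi χ := by
  have h1 := low_count H hy hy' (l χ)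
  have h2 : {ω | y.Pi ω ∧ l ω = l χ}.ncard ≠ 0 := by
    rw [Ne, Set.ncard_eq_zero ((pi_finite H y).subset fun ω h => h.1)]
    exact Set.nonempty_iff_ne_empty.1 ⟨χ, hχ, rfl⟩
  rw [h1] at h2
  obtain ⟨ω, h3, h4⟩ := Set.nonempty_of_ncard_ne_zero h2
  have h5 := huniq ω h3 h4
  rwa [h5] at h3

end

section
variable {r : ℕ} {R : Type} [CommRing R] [IsDomain R] [Algebra ℂ R]
variable {𝒜 : ℕ × (Fin r → ℤ) → Submodule ℂ R} [GradedAlgebra 𝒜]

/-- The two derivations of a root. -/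
theorem root_ders {N : ℤ} {χ : Fin r → ℤ} {β : (Fin r → ℤ) →+ ℤ} {E F : VF R}
    (hR : Root 𝒜 N χ β E F) : ∃ (De Df : Derivation ℂ R R) (c : ℂ), toVF De = E ∧ toVF Df = F ∧
      H93.IsHField 𝒜 χ De ∧ H93.IsHField 𝒜 (-χ) Df ∧ ∀ (d : ℕ) (m : Fin r → ℤ), ∀ h ∈ 𝒜 (d, m),
        De (Df h) - Df (De h) =
          (c * d + (-((Int.castAddHom ℂ).comp β) : (Fin r → ℤ) →+ ℂ) m) • h := by
  obtain ⟨De, rfl, hDe⟩ := hR.globE.exists_hder hR.hvE
  obtain ⟨Df, rfl, hDf⟩ := hR.globF.exists_hder hR.hvF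
  obtain ⟨α, hα⟩ := hR.br
  refine ⟨De, Df, -α, rfl, rfl, hDe, hDf, fun d m h hh => ?_⟩
  apply iK_inj
  have h1 := hα d m h hh
  rw [← toVF_lie, toVF_iK, Derivation.commutator_apply] at h1
  rw [h1, iK_smul, ← neg_smul]
  congr 1
  rw [AddMonoidHom.neg_apply, AddMonoidHom.comp_apply, Int.coe_castAddHom]
  ring

/-- The fields of a root vanish at a point where the weight does not occur. -/
theorem root_fix {N : ℤ} (hN : 0 < N) {χ : Fin r → ℤ} {β : (Fin r → ℤ) →+ ℤ} {E F : VF R}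
    (hR : Root 𝒜 N χ β E F) : χ ≠ 0 := by
  rintro rfl
  have := hR.two
  rw [map_zero] at this
  omega

/-- **The `sl_2` lemma** in the letters of plan N. -/
theorem root_sub (H : Hyp 𝒜) {N : ℤ} (hN : 0 < N) {χ : Fin r → ℤ} {β : (Fin r → ℤ) →+ ℤ}
    {E F : VF R} (hR : Root 𝒜 N χ β E F) {y : FP 𝒜} (h1 : ¬ y.Pi χ) (h2 : ¬ y.Pi (-χ))
    {ω : Fin r → ℤ} (hω : y.Pi ω) (hβ : 0 < β ω) : y.Pi (ω - χ) := by
  obtain ⟨De, Df, c, -, -, hDe, hDf, hbr⟩ := root_ders hR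
  have hχ := root_fix hN hR
  refine tangentWeight_sub H.hX y.nv y.fix hDe hDf hbr (field_eq_zero y.fix hχ hDe h1)
    (field_eq_zero y.fix (neg_ne_zero.2 hχ) hDf h2) ?_ ?_ hω
  · rw [AddMonoidHom.neg_apply, AddMonoidHom.comp_apply, Int.coe_castAddHom, hR.two]
    push_cast
    have h3 : (N : ℂ) ≠ 0 := by exact_mod_cast hN.ne'
    exact neg_ne_zero.2 (mul_ne_zero two_ne_zero h3)
  · intro k hk
    rw [AddMonoidHom.neg_apply, AddMonoidHom.neg_apply, AddMonoidHom.comp_apply,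
      AddMonoidHom.comp_apply, Int.coe_castAddHom, hR.two] at hk
    have h3 : ((2 * β ω + k * (2 * N) : ℤ) : ℂ) = 0 := by
      push_cast at hk ⊢
      linear_combination -hk
    have h4 : 2 * β ω + k * (2 * N) = 0 := by exact_mod_cast h3
    have h5 : 0 ≤ (k : ℤ) * (2 * N) := by positivity
    omega

theorem root_add (H : Hyp 𝒜) {N : ℤ} (hN : 0 < N) {χ : Fin r → ℤ} {β : (Fin r → ℤ) →+ ℤ}
    {E F : VF R} (hR : Root 𝒜 N χ β E F) {y : FP 𝒜} (h1 : ¬ y.Pi χ) (h2 : ¬ y.Pi (-χ))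
    {ω : Fin r → ℤ} (hω : y.Pi ω) (hβ : β ω < 0) : y.Pi (ω + χ) := by
  obtain ⟨De, Df, c, -, -, hDe, hDf, hbr⟩ := root_ders hR
  have hχ := root_fix hN hR
  refine tangentWeight_add H.hX y.nv y.fix hDe hDf hbr (field_eq_zero y.fix hχ hDe h1)
    (field_eq_zero y.fix (neg_ne_zero.2 hχ) hDf h2) ?_ ?_ hω
  · rw [AddMonoidHom.neg_apply, AddMonoidHom.comp_apply, Int.coe_castAddHom, hR.two]
    push_cast
    have h3 : (N : ℂ) ≠ 0 := by exact_mod_cast hN.ne'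
    exact neg_ne_zero.2 (mul_ne_zero two_ne_zero h3)
  · intro k hk
    rw [AddMonoidHom.neg_apply, AddMonoidHom.neg_apply, AddMonoidHom.comp_apply,
      AddMonoidHom.comp_apply, Int.coe_castAddHom, hR.two] at hk
    have h3 : ((2 * β ω - k * (2 * N) : ℤ) : ℂ) = 0 := by
      push_cast at hk ⊢
      linear_combination -hk
    have h4 : 2 * β ω - k * (2 * N) = 0 := by exact_mod_cast h3
    have h5 : 0 ≤ (k : ℤ) * (2 * N) := by positivity
    omega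

section face
variable {N : ℤ} {lam : Fin r → ℤ} {m : ℕ} {e : Fin m → Fin r → ℤ} {L0 : (Fin r → ℤ) →+ ℤ}
  {β : Fin m → Bool → ((Fin r → ℤ) →+ ℤ)} {E F : Fin m → Bool → VF R}

theorem face_L0_vx (hF : Face 𝒜 N lam m e L0 β E F) (j : Fin m) (s : Bool) :
    L0 (vx lam e j s) = L0 lam := by
  rw [vx, map_add, map_zsmul, hF.lze, smul_zero, add_zero]

/-- The negatives of the vertices of the face do not occur on the lowest component of `L0`. -/
theorem not_pi_neg_vx (H : Hyp 𝒜) (hF : Face 𝒜 N lam m e L0 β E F) {y : FP 𝒜} (hy : Low L0 y)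
    (j : Fin m) (s : Bool) : ¬ y.Pi (-(vx lam e j s)) := by
  intro h
  have h1 := pos_of_low H hy _ h
  rw [map_neg, face_L0_vx hF] at h1
  have := hF.pos
  omega

/-- **(f1)** -/
theorem f1 (H : Hyp 𝒜) (hF : Face 𝒜 N lam m e L0 β E F) {y : FP 𝒜} (hy : Low L0 y)
    {i j : Fin m} (hij : i ≠ j) {s s' : Bool} (h1 : ¬ y.Pi (vx lam e j s))
    (h2 : y.Pi (vx lam e i s')) : y.Pi (sg s' • e i - sg s • e j) := by
  have h3 := root_sub H hF.N0 (hF.root j s) h1 (not_pi_neg_vx H hF hy j s) h2 (by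
    rw [vx, map_add, map_zsmul, hF.bl, hF.be, if_neg hij, smul_zero, add_zero]
    exact hF.N0)
  have h4 : vx lam e i s' - vx lam e j s = sg s' • e i - sg s • e j := by
    rw [vx, vx]
    abel
  rwa [h4] at h3

/-- **(f2)** -/
theorem f2 (H : Hyp 𝒜) (hF : Face 𝒜 N lam m e L0 β E F) {y : FP 𝒜} (hy : Low L0 y)
    {j : Fin m} {s : Bool} (h1 : ¬ y.Pi (vx lam e j s)) (h2 : y.Pi lam) :
    y.Pi (-(sg s • e j)) := by
  have h3 := root_sub H hF.N0 (hF.root j s) h1 (not_pi_neg_vx H hF hy j s) h2 (by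
    rw [hF.bl]
    exact hF.N0)
  have h4 : lam - vx lam e j s = -(sg s • e j) := by
    rw [vx]
    abel
  rwa [h4] at h3

/-- If `lam` occurs at `y`, one of the two opposite vertices occurs. -/
theorem f3 (H : Hyp 𝒜) (hF : Face 𝒜 N lam m e L0 β E F) {y : FP 𝒜} (hy : Low L0 y)
    (h2 : y.Pi lam) (j : Fin m) (s : Bool) (h1 : ¬ y.Pi (vx lam e j s)) :
    y.Pi (vx lam e j !s) := by
  by_contra h3
  have h4 := f2 H hF hy h1 h2
  have h5 := f2 H hF hy h3 h2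
  refine not_pi_neg H h4 ?_
  have h6 : -(sg (!s) • e j) = -(-(sg s • e j)) := by
    cases s <;> simp [sg]
  rwa [← h6]

end face

end

end Vale.Agent.P280.H170
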