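import Vale.Agent.P280.H93.E0
import Vale.Agent.P280.H587.Generic

/-!
P280: the number of tangent weights with a given value of `l` is the same at all the points of the
lowest component of the one-parameter group `l`.
-/

open DirectSum Vale.Agent.P280.T Vale.Agent.P280.H127

namespace Vale.Agent.P280.H170

section comb

/-- Two maps with fibres of comparable sizes, from sets of the same size. -/
theorem card_fiber_eq {n n' : ℕ} (h : n = n') {Γ : Type} [DecidableEq Γ] (f : Fin n → Γ)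
    (g : Fin n' → Γ) (hle : ∀ k, (Finset.univ.filter fun i => g i = k).card ≤
      (Finset.univ.filter fun i => f i = k).card) (k : Γ) :
    (Finset.univ.filter fun i => g i = k).card = (Finset.univ.filter fun i => f i = k).card := by
  classical
  let K : Finset Γ := insert k (Finset.univ.image f ∪ Finset.univ.image g)
  have h1 : (Finset.univ : Finset (Fin n)).card =
      ∑ k ∈ K, (Finset.univ.filter fun i => f i = k).card :=
    Finset.card_eq_sum_card_fiberwise fun i _ => by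
      simp [K]
  have h2 : (Finset.univ : Finset (Fin n')).card =
      ∑ k ∈ K, (Finset.univ.filter fun i => g i = k).card :=
    Finset.card_eq_sum_card_fiberwise fun i _ => by
      simp [K]
  rw [Finset.card_univ, Fintype.card_fin] at h1 h2
  have h3 : ∑ k ∈ K, (Finset.univ.filter fun i => g i = k).card =
      ∑ k ∈ K, (Finset.univ.filter fun i => f i = k).card := by
    rw [← h1, ← h2, h]
  exact (Finset.sum_eq_sum_iff_of_le fun k _ => hle k).1 h3 k (Finset.mem_insert_self _ _)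

end comb

variable {M : Type} [AddCommGroup M] [DecidableEq M] {R : Type} [CommRing R] [Algebra ℂ R]
variable {𝒜 : ℕ × M → Submodule ℂ R} [GradedAlgebra 𝒜]

/-- The dimensions of the weight spaces are semicontinuous. -/
theorem exists_semi (hX : IsTorusManifold 𝒜) {Γ : Type} [AddCommGroup Γ] [DecidableEq Γ]
    {f : ℕ × M →+ Γ} {q : R →ₐ[ℂ] ℂ} (hq : Fix (coarse 𝒜 f) q) {n : ℕ} {u : Fin n → R}
    {wt : Fin n → Γ} (G : Gens (coarse 𝒜 f) q u wt) (hn : (n : ℕ∞) = (mx q).height) :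
    ∃ s : R, q s = 1 ∧ ∀ (z : R →ₐ[ℂ] ℂ) (_ : z s ≠ 0) (_ : Fix (coarse 𝒜 f) z) (n' : ℕ)
      (u' : Fin n' → R) (wt' : Fin n' → Γ) (_ : Gens (coarse 𝒜 f) z u' wt')
      (_ : (n' : ℕ∞) = (mx z).height) (k : Γ), (Finset.univ.filter fun i => wt' i = k).card ≤
        (Finset.univ.filter fun i => wt i = k).card := by
  classical
  have := noeth hX
  have := hX.finiteType
  obtain ⟨v, hvT, -, -, hsp⟩ := G.exists_dual hq hn.le
  obtain ⟨s, hs, hsL⟩ := H93.exists_localizer (q := q) u (fun ξ hξ h0 => by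
    rw [hsp ξ hξ]
    exact Finset.sum_eq_zero fun i _ => by rw [h0 i, zero_smul])
  refine ⟨s, hs, fun z hz hzf n' u' wt' G' hn' k => ?_⟩
  obtain ⟨v', hvT', hvu', hvw', -⟩ := G'.exists_dual hzf hn'.le
  -- a tangent vector at `z` which kills the `u i` vanishes
  have key : ∀ ξ : R →ₗ[ℂ] ℂ, IsTangent z ξ → (∀ i, ξ (u i) = 0) → ξ = 0 := by
    intro ξ hξ h0
    obtain ⟨φ, hφ, hφw⟩ := H93.exists_lift hξ
    have hφL : ∀ ω ∈ Submodule.span R (Set.range fun j => KaehlerDifferential.D ℂ R (u j)),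
        φ ω = 0 := by
      intro ω hω
      induction hω using Submodule.span_induction with
      | mem x hx =>
        obtain ⟨j, rfl⟩ := hx
        change φ (KaehlerDifferential.D ℂ R (u j)) = 0
        rw [hφw, h0 j]
      | zero => exact map_zero φ
      | add x y _ _ hx hy => rw [map_add, hx, hy, add_zero]
      | smul a x _ hx => rw [hφ, hx, mul_zero]
    apply LinearMap.ext
    intro h
    have h1 := hφL _ (hsL (KaehlerDifferential.D ℂ R h))
    rw [hφ, hφw] at h1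
    exact (mul_eq_zero.1 h1).resolve_left hz
  let A : {i : Fin n' // wt' i = k} → ({i : Fin n // wt i = k} → ℂ) :=
    fun i j => v' i.1 (u j.1)
  have hli : LinearIndependent ℂ A := by
    rw [Fintype.linearIndependent_iff]
    intro c hc
    let ξ : R →ₗ[ℂ] ℂ := ∑ i, c i • v' i.1
    have hξ : IsTangent z ξ := by
      have h1 : ξ ∈ H93.tangentSpace z :=
        Submodule.sum_mem _ fun i _ => Submodule.smul_mem _ _ (hvT' i.1)
      exact h1
    have hξ' : ∀ x, ξ x = ∑ i, c i * v' i.1 x := by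
      intro x
      simp [ξ, LinearMap.sum_apply]
    have h0 : ξ = 0 := by
      apply key ξ hξ
      intro j
      rw [hξ']
      by_cases hj : wt j = k
      · have h2 := congrFun hc ⟨j, hj⟩
        simpa [A, Finset.sum_apply] using h2
      · refine Finset.sum_eq_zero fun i _ => ?_
        rw [hvw' i.1 (wt j) (by rw [i.2]; exact hj) _ (G.hom j), mul_zero]
    intro i
    have h3 := hξ' (u' i.1)
    rw [h0, LinearMap.zero_apply, Finset.sum_eq_single i] at h3
    · rw [hvu', if_pos rfl, mul_one] at h3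
      exact h3.symm
    · intro j _ hji
      rw [hvu', if_neg (fun h => hji (Subtype.ext h)), mul_zero]
    · intro h
      exact absurd (Finset.mem_univ i) h
  have h4 := hli.fintype_card_le_finrank
  rw [Module.finrank_fintype_fun_eq_card, Fintype.card_subtype, Fintype.card_subtype] at h4
  exact h4

/-- Two points of the lowest component can be moved to a common one. -/
theorem exists_common (hX : IsTorusManifold 𝒜) {l : M →+ ℤ} {μ : ℤ}
    (hlow : ∀ (d : ℕ) (m : M), ∀ h ∈ 𝒜 (d, m), h ≠ 0 → d • μ ≤ l m) {q q' : R →ₐ[ℂ] ℂ}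
    (hq0 : ¬ IsVertex 𝒜 q) (hq : Fix (coarse 𝒜 (rl l μ)) q) (hq' : Fix (coarse 𝒜 (rl l μ)) q')
    {s s' : R} (hs : q s ≠ 0) (hs' : q' s' ≠ 0) : ∃ z : R →ₐ[ℂ] ℂ, ¬ IsVertex 𝒜 z ∧
      Fix (coarse 𝒜 (rl l μ)) z ∧ z s ≠ 0 ∧ z s' ≠ 0 := by
  have := hX.finiteType
  have := hX.domain
  set 𝒷 := coarse 𝒜 (rl l μ) with h𝒷
  obtain ⟨m, g, hg, hgq⟩ := (not_isVertex_iff hX.gen q).1 hq0
  have h1 : cp 𝒷 0 s ≠ 0 := fun h => hs (by rw [← hq.q_cp, h, map_zero])
  have h2 : cp 𝒷 0 s' ≠ 0 := fun h => hs' (by rw [← hq'.q_cp, h, map_zero])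
  have hg0 : g ≠ 0 := fun h => hgq (by rw [h, map_zero])
  have hgm : rl l μ (1, m) = 0 := by
    by_contra hne
    exact hgq (hq _ hne g (mem_coarse hg rfl))
  have hne : cp 𝒷 0 s * cp 𝒷 0 s' * g ∉ (⊥ : Ideal R).radical := by
    rintro ⟨k, hk⟩
    exact pow_ne_zero k (mul_ne_zero (mul_ne_zero h1 h2) hg0) ((Submodule.mem_bot R).1 hk)
  obtain ⟨z, -, hz⟩ := T.exists_point hne
  rw [map_mul, map_mul] at hz
  obtain ⟨y, hy1, hy2⟩ := exists_limit 𝒜 z (rl l μ) (by
    rintro ⟨d, m⟩ h hh hne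
    rw [rl_apply, sub_nonneg]
    exact hlow d m h hh fun h0 => hne (by rw [h0, map_zero]))
  have hyf : Fix 𝒷 y := by
    intro k hk x hx
    refine coarse_induction (P := fun x => y x = 0) (map_zero y) (fun a b ha hb => by
      rw [map_add, ha, hb, add_zero]) ?_ hx
    intro i hi h hh
    exact hy2 i h hh (by rw [hi]; exact hk)
  have hyc : ∀ x : R, y x = z (cp 𝒷 0 x) := by
    intro x
    rw [← hyf.q_cp]
    refine coarse_induction (P := fun x => y x = z x) (by rw [map_zero, map_zero])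
      (fun a b ha hb => by rw [map_add, map_add, ha, hb]) ?_ (cp_mem 𝒷 0 x)
    intro i hi h hh
    exact hy1 i h hh hi
  refine ⟨y, fun hv => ?_, hyf, ?_, ?_⟩
  · have h3 := hv 1 m one_pos g hg
    rw [hy1 (1, m) g hg hgm] at h3
    exact right_ne_zero_of_mul hz h3
  · rw [hyc]
    exact left_ne_zero_of_mul (left_ne_zero_of_mul hz)
  · rw [hyc]
    exact right_ne_zero_of_mul (left_ne_zero_of_mul hz)

/-- **Constancy of the dimensions of the weight spaces on the lowest component.** -/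
theorem card_const (hX : IsTorusManifold 𝒜) {l : M →+ ℤ} {μ : ℤ}
    (hlow : ∀ (d : ℕ) (m : M), ∀ h ∈ 𝒜 (d, m), h ≠ 0 → d • μ ≤ l m) {q q' : R →ₐ[ℂ] ℂ}
    (hq0 : ¬ IsVertex 𝒜 q) (hq : Fix (coarse 𝒜 (rl l μ)) q)
    (hq' : Fix (coarse 𝒜 (rl l μ)) q')
    {n : ℕ} {u : Fin n → R} {wt : Fin n → ℤ} (G : Gens (coarse 𝒜 (rl l μ)) q u wt)
    (hn : (n : ℕ∞) = (mx q).height) {n' : ℕ} {u' : Fin n' → R} {wt' : Fin n' → ℤ}
    (G' : Gens (coarse 𝒜 (rl l μ)) q' u' wt') (hn' : (n' : ℕ∞) = (mx q').height) (k : ℤ) :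
    (Finset.univ.filter fun i => wt i = k).card =
      (Finset.univ.filter fun i => wt' i = k).card := by
  have := hX.domain
  have := hX.finiteType
  obtain ⟨N, hN⟩ := H93.exists_height ℂ R
  have hmax : ∀ p : R →ₐ[ℂ] ℂ, (mx p).height = N := fun p =>
    hN _ (RingHom.ker_isMaximal_of_surjective p fun c => ⟨algebraMap ℂ R c, p.commutes c⟩)
  obtain ⟨s, hs, h1⟩ := exists_semi hX hq G hn
  obtain ⟨s', hs', h2⟩ := exists_semi hX hq' G' hn'
  obtain ⟨z, hz0, hz, hzs, hzs'⟩ := exists_common hX hlow hq0 hq hq' (s := s) (s' := s')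
    (by rw [hs]; exact one_ne_zero) (by rw [hs']; exact one_ne_zero)
  obtain ⟨nz, uz, wz, Gz, hnz⟩ := exists_params_T hX hz0 hz
  have e1 : n = nz := by
    rw [hmax] at hn hnz
    rw [← hn] at hnz
    exact_mod_cast hnz.symm
  have e2 : n' = nz := by
    rw [hmax] at hn' hnz
    rw [← hn'] at hnz
    exact_mod_cast hnz.symm
  rw [← card_fiber_eq e1 wt wz (fun k => h1 z hzs hz nz uz wz Gz hnz k) k,
    ← card_fiber_eq e2 wt' wz (fun k => h2 z hzs' hz nz uz wz Gz hnz k) k]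

/-- The tangent weights with a given value of `l`, in terms of parameters. -/
theorem ncard_eq (hX : IsTorusManifold 𝒜)
    (hiso : ∀ (x : R →ₐ[ℂ] ℂ) (ν : M), ¬ IsVertex 𝒜 x → IsFixed 𝒜 x ν → ¬ TangentWeight 𝒜 x ν 0)
    (hmult : ∀ (x : R →ₐ[ℂ] ℂ) (ν ω : M), ¬ IsVertex 𝒜 x → IsFixed 𝒜 x ν →
      TangentWeight 𝒜 x ν ω → ∀ v v' : R →ₗ[ℂ] ℂ, IsTangent x v → HasWeight 𝒜 ν ω v →
        IsTangent x v' → HasWeight 𝒜 ν ω v' → ∃ c c' : ℂ, (c ≠ 0 ∨ c' ≠ 0) ∧
          ∀ h, c * v h + c' * v' h = 0)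
    {l : M →+ ℤ} {y : R →ₐ[ℂ] ℂ} {ν : M} (hy0 : ¬ IsVertex 𝒜 y) (hy : IsFixed 𝒜 y ν) :
    ∃ (n : ℕ) (u : Fin n → R) (wt : Fin n → ℤ), Gens (coarse 𝒜 (rl l (l ν))) y u wt ∧
      (n : ℕ∞) = (mx y).height ∧ ∀ k : ℤ, {χ | TangentWeight 𝒜 y ν χ ∧ l χ = k}.Finite ∧
        {χ | TangentWeight 𝒜 y ν χ ∧ l χ = k}.ncard + (if k = 0 then 1 else 0) =
          (Finset.univ.filter fun i => wt i = k).card := by
  classical
  have := noeth hX
  have hfx := fix_of_isFixed hy
  obtain ⟨n, u, wt, G, hn⟩ := exists_params_T hX hy0 hfx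
  obtain ⟨v, hvT, hvu, hvw, -⟩ := G.exists_dual hfx hn.le
  have hvW : ∀ i, HasWeight 𝒜 ν (wt i) (v i) := fun i => weight_iff.1 (hvw i)
  -- dependence of the dual vectors
  have hdep : ∀ i j, i ≠ j → ∀ c c' : ℂ, (c ≠ 0 ∨ c' ≠ 0) →
      (∀ h, c * v i h + c' * v j h = 0) → False := by
    intro i j hij c c' hc h
    have h1 := h (u i)
    have h2 := h (u j)
    rw [hvu, hvu, if_pos rfl, if_neg hij.symm, mul_one, mul_zero, add_zero] at h1
    rw [hvu, hvu, if_pos rfl, if_neg hij, mul_one, mul_zero, zero_add] at h2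
    rcases hc with hc | hc
    · exact hc h1
    · exact hc h2
  -- weight zero
  have hz1 : ∃ i, wt i = 0 := by
    obtain ⟨E, hE, hE1⟩ := H127.exists_euler 𝒜 y
    obtain ⟨g, hg, hgy⟩ := exists_deg_one_ne hX.gen hy0 hy
    refine wt_of_weight hX hfx G hn (ξ := E) (χ := 0) hE ?_ ?_
    · intro d m h hh hne
      rw [hE1 d m h hh] at hne
      rw [AddMonoidHom.id_apply, hy d m h hh (right_ne_zero_of_mul hne), add_zero]
    · intro h0
      have h1 := hE1 1 ν g hg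
      rw [h0, LinearMap.zero_apply, Nat.cast_one, one_mul] at h1
      exact hgy h1.symm
  have hz2 : ∀ i j, wt i = 0 → wt j = 0 → i = j := by
    intro i j hi hj
    by_contra hij
    have h1 : ∀ i, wt i = 0 → ∃ c : ℂ, ∀ (d : ℕ) (m : M), ∀ h ∈ 𝒜 (d, m), v i h = c * d * y h := by
      intro i hi
      by_contra hcon
      push Not at hcon
      refine hiso y ν hy0 hy ⟨v i, hvT i, ?_, hcon⟩
      have := hvW i
      rwa [hi] at this
    obtain ⟨c, hc⟩ := h1 i hi
    obtain ⟨c', hc'⟩ := h1 j hj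
    have h2 : ∀ h, c' * v i h + (-c) * v j h = 0 := by
      have h3 : c' • v i + (-c) • v j = 0 := by
        refine linearMap_ext_graded 𝒜 ?_
        rintro ⟨d, m⟩ h hh
        rw [LinearMap.add_apply, LinearMap.smul_apply, LinearMap.smul_apply, hc d m h hh,
          hc' d m h hh, LinearMap.zero_apply, smul_eq_mul, smul_eq_mul]
        ring
      intro h
      exact LinearMap.congr_fun h3 h
    by_cases h0 : c' ≠ 0 ∨ -c ≠ 0
    · exact hdep i j hij _ _ h0 h2
    · push Not at h0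
      have h4 : v i = 0 := by
        refine linearMap_ext_graded 𝒜 ?_
        rintro ⟨d, m⟩ h hh
        rw [hc d m h hh, neg_eq_zero.1 h0.2]
        simp
      have h5 := hvu i i
      rw [h4, if_pos rfl, LinearMap.zero_apply] at h5
      exact zero_ne_one h5
  have hinj : ∀ i j, wt i ≠ 0 → wt i = wt j → i = j := by
    intro i j hi hij
    by_contra hne
    obtain ⟨c, c', hc, h⟩ := hmult y ν (wt i) hy0 hy (tangentWeight_of_wt hX hy G hn hi) (v i)
      (v j) (hvT i) (hvW i) (hvT j) (by rw [hij]; exact hvW j)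
    exact hdep i j hne c c' hc h
  -- the parameters are homogeneous for the coarser grading
  have G' : Gens (coarse 𝒜 (rl l (l ν))) y u (fun i => l (wt i)) := by
    have hco : ∀ (χ : M) (x : R), x ∈ coarse 𝒜 (rl (AddMonoidHom.id M) ν) χ →
        x ∈ coarse 𝒜 (rl l (l ν)) (l χ) := by
      intro χ x hx
      refine coarse_induction (P := fun x => x ∈ coarse 𝒜 (rl l (l ν)) (l χ))
        (Submodule.zero_mem _) (fun a b ha hb => Submodule.add_mem _ ha hb) ?_ hx
      rintro ⟨d, m⟩ hi h hh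
      refine mem_coarse hh ?_
      rw [rl_apply] at hi ⊢
      rw [← hi, map_sub, map_nsmul]
      rfl
    obtain ⟨s, hs0, hs1, hs2⟩ := G.gen
    refine ⟨fun i => hco _ _ (G.hom i), G.zero, s, ?_, hs1, hs2⟩
    have := hco _ _ hs0
    rwa [map_zero] at this
  refine ⟨n, u, fun i => l (wt i), G', hn, fun k => ?_⟩
  have hset : {χ | TangentWeight 𝒜 y ν χ ∧ l χ = k} =
      ((Finset.univ.filter fun i => wt i ≠ 0 ∧ l (wt i) = k).image wt : Finset M) := by
    ext χ
    simp only [Set.mem_ofPred_eq, Finset.coe_image, Finset.coe_filter, Finset.mem_univ, true_and,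
      Set.mem_image]
    constructor
    · rintro ⟨h1, h2⟩
      obtain ⟨i, rfl⟩ := wt_of_tangentWeight hX hy G hn h1
      refine ⟨i, ⟨fun h0 => ?_, h2⟩, rfl⟩
      rw [h0] at h1
      exact hiso y ν hy0 hy h1
    · rintro ⟨i, ⟨h1, h2⟩, rfl⟩
      exact ⟨tangentWeight_of_wt hX hy G hn h1, h2⟩
  refine ⟨by rw [hset]; exact Finset.finite_toSet _, ?_⟩
  rw [hset, Set.ncard_coe_finset, Finset.card_image_of_injOn (by
    intro i hi j _ hij
    rw [Finset.coe_filter, Set.mem_ofPred_eq] at hi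
    exact hinj i j hi.2.1 hij)]
  have h6 : (Finset.univ.filter fun i => l (wt i) = k) =
      (Finset.univ.filter fun i => wt i ≠ 0 ∧ l (wt i) = k) ∪
        (Finset.univ.filter fun i => wt i = 0 ∧ l (wt i) = k) := by
    ext i
    simp only [Finset.mem_filter, Finset.mem_univ, true_and, Finset.mem_union]
    tauto
  have h7 : Disjoint (Finset.univ.filter fun i => wt i ≠ 0 ∧ l (wt i) = k)
      (Finset.univ.filter fun i => wt i = 0 ∧ l (wt i) = k) := by
    rw [Finset.disjoint_left]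
    intro i hi hi'
    exact (Finset.mem_filter.1 hi).2.1 (Finset.mem_filter.1 hi').2.1
  rw [h6, Finset.card_union_of_disjoint h7]
  congr 1
  obtain ⟨i0, hi0⟩ := hz1
  by_cases hk : k = 0
  · rw [if_pos hk]
    symm
    rw [Finset.card_eq_one]
    refine ⟨i0, ?_⟩
    ext i
    simp only [Finset.mem_filter, Finset.mem_univ, true_and, Finset.mem_singleton]
    constructor
    · rintro ⟨h1, -⟩
      exact hz2 i i0 h1 hi0
    · rintro rfl
      exact ⟨hi0, by rw [hi0, map_zero, hk]⟩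
  · rw [if_neg hk]
    symm
    rw [Finset.card_eq_zero, Finset.filter_eq_empty_iff]
    rintro i - ⟨h1, h2⟩
    rw [h1, map_zero] at h2
    exact hk h2.symm

/-- The slopes are at least the lowest one. -/
theorem slope_low (hX : IsTorusManifold 𝒜) {l : M →+ ℤ} {μ : ℤ}
    (hlow : ∀ m ∈ H587.wts 𝒜, μ ≤ l m) :
    ∀ (d : ℕ) (m : M), ∀ h ∈ 𝒜 (d, m), h ≠ 0 → d • μ ≤ l m := by
  intro d m h hh hne
  refine slope_le hX.gen l μ (⊥ : Ideal R) (fun m g hg hg0 => ?_) d m h hh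
    (fun h0 => hne ((Submodule.mem_bot R).1 h0))
  exact hlow m ⟨g, hg, fun h0 => hg0 (by rw [h0]; exact Ideal.zero_mem _)⟩

/-- The set of tangent weights is finite. -/
theorem finite_weights_at (hX : IsTorusManifold 𝒜)
    (hiso : ∀ (x : R →ₐ[ℂ] ℂ) (ν : M), ¬ IsVertex 𝒜 x → IsFixed 𝒜 x ν → ¬ TangentWeight 𝒜 x ν 0)
    (hmult : ∀ (x : R →ₐ[ℂ] ℂ) (ν ω : M), ¬ IsVertex 𝒜 x → IsFixed 𝒜 x ν →
      TangentWeight 𝒜 x ν ω → ∀ v v' : R →ₗ[ℂ] ℂ, IsTangent x v → HasWeight 𝒜 ν ω v →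
        IsTangent x v' → HasWeight 𝒜 ν ω v' → ∃ c c' : ℂ, (c ≠ 0 ∨ c' ≠ 0) ∧
          ∀ h, c * v h + c' * v' h = 0)
    (l : M →+ ℤ) {y : R →ₐ[ℂ] ℂ} {ν : M} (hy0 : ¬ IsVertex 𝒜 y) (hy : IsFixed 𝒜 y ν) (k : ℤ) :
    {χ | TangentWeight 𝒜 y ν χ ∧ l χ = k}.Finite := by
  obtain ⟨n, u, wt, -, -, h⟩ := ncard_eq hX hiso hmult (l := l) hy0 hy
  exact (h k).1

/-- **COUNT.** The number of tangent weights with a given value of `l` is the same at all the
fixed points of the torus in the lowest component of `l`. -/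
theorem ncard_const (hX : IsTorusManifold 𝒜)
    (hiso : ∀ (x : R →ₐ[ℂ] ℂ) (ν : M), ¬ IsVertex 𝒜 x → IsFixed 𝒜 x ν → ¬ TangentWeight 𝒜 x ν 0)
    (hmult : ∀ (x : R →ₐ[ℂ] ℂ) (ν ω : M), ¬ IsVertex 𝒜 x → IsFixed 𝒜 x ν →
      TangentWeight 𝒜 x ν ω → ∀ v v' : R →ₗ[ℂ] ℂ, IsTangent x v → HasWeight 𝒜 ν ω v →
        IsTangent x v' → HasWeight 𝒜 ν ω v' → ∃ c c' : ℂ, (c ≠ 0 ∨ c' ≠ 0) ∧
          ∀ h, c * v h + c' * v' h = 0)
    {l : M →+ ℤ} {y y' : R →ₐ[ℂ] ℂ} {ν ν' : M} (hy0 : ¬ IsVertex 𝒜 y) (hy : IsFixed 𝒜 y ν)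
    (hy0' : ¬ IsVertex 𝒜 y') (hy' : IsFixed 𝒜 y' ν') (hlow : ∀ m ∈ H587.wts 𝒜, l ν ≤ l m)
    (hνν' : l ν' = l ν) (k : ℤ) :
    {χ | TangentWeight 𝒜 y ν χ ∧ l χ = k}.ncard =
      {χ | TangentWeight 𝒜 y' ν' χ ∧ l χ = k}.ncard := by
  obtain ⟨n, u, wt, G, hn, h1⟩ := ncard_eq hX hiso hmult (l := l) hy0 hy
  obtain ⟨n', u', wt', G', hn', h2⟩ := ncard_eq hX hiso hmult (l := l) hy0' hy'
  have hq : Fix (coarse 𝒜 (rl l (l ν))) y := fix_iff.2 fun d m h hh hne => by
    rw [hy d m h hh hne, map_nsmul]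
  have hq' : Fix (coarse 𝒜 (rl l (l ν))) y' := fix_iff.2 fun d m h hh hne => by
    rw [hy' d m h hh hne, map_nsmul, hνν']
  rw [hνν'] at G'
  have h3 := card_const hX (slope_low hX hlow) hy0 hq hq' G hn G' hn' k
  rw [← (h1 k).2, ← (h2 k).2] at h3
  exact Nat.add_right_cancel h3

end Vale.Agent.P280.H170
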