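import Vale.Agent.P280.H170.Count

/-!
P280: tangent weights at a point fixed by the `sl_2` of a root.
-/

open DirectSum Vale.Agent.P280.T Vale.Agent.P280.H127 Vale.Agent.P280.H93

namespace Vale.Agent.P280.H170

variable {M : Type} [AddCommGroup M] [DecidableEq M] {R : Type} [CommRing R] [Algebra ℂ R]
variable {𝒜 : ℕ × M → Submodule ℂ R} [GradedAlgebra 𝒜]

/-- A tangent vector composed with a field which vanishes at the point. -/
theorem isTangent_comp {y : R →ₐ[ℂ] ℂ} {v : R →ₗ[ℂ] ℂ} (hv : IsTangent y v)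
    {D : Derivation ℂ R R} (hD : ∀ h, y (D h) = 0) : IsTangent y (v.comp D.toLinearMap) := by
  intro a b
  change v (D (a * b)) = y a * v (D b) + y b * v (D a)
  rw [Derivation.leibniz, map_add, smul_eq_mul, smul_eq_mul, hv, hv, hD, hD]
  ring

theorem hasWeight_comp {ν χ α : M} {v : R →ₗ[ℂ] ℂ} (hv : HasWeight 𝒜 ν χ v)
    {D : Derivation ℂ R R} (hD : IsHField 𝒜 α D) : HasWeight 𝒜 ν (χ + α) (v.comp D.toLinearMap) := by
  intro d m h hh hne
  have h1 := hv d (m - α) (D h) (hD d m h hh) hne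
  rw [← add_assoc, ← h1, sub_add_cancel]

/-- A nonzero tangent vector of pure weight does not vanish in degree one. -/
theorem mem_wts_of_ne (hX : IsTorusManifold 𝒜) {y : R →ₐ[ℂ] ℂ} {ν χ : M} {v : R →ₗ[ℂ] ℂ}
    (hv : IsTangent y v) (hw : HasWeight 𝒜 ν χ v) (hne : v ≠ 0) : ν + χ ∈ H587.wts 𝒜 := by
  by_contra hcon
  apply hne
  apply LinearMap.ext
  intro b
  refine H587.tangent_eq_zero hX hv (fun m g hg => ?_) b
  by_contra h0
  apply hcon
  have h1 := hw 1 m g hg h0
  rw [one_smul] at h1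
  rw [← h1]
  exact ⟨g, hg, fun h => h0 (by rw [h, map_zero])⟩

/-- **The `sl_2` lemma.** If the `sl_2` of the root `α` fixes `y`, then `χ - α` is a tangent weight
at `y` for each tangent weight `χ` with `2 θ(χ) / θ(α)` not a nonpositive integer. -/
theorem tangentWeight_sub (hX : IsTorusManifold 𝒜) {y : R →ₐ[ℂ] ℂ} {ν χ α : M}
    (hy0 : ¬ IsVertex 𝒜 y) (hy : IsFixed 𝒜 y ν) {Dp Dm : Derivation ℂ R R}
    (hp : IsHField 𝒜 α Dp) (hm : IsHField 𝒜 (-α) Dm) {c : ℂ} {θ : M →+ ℂ}
    (hθ : ∀ (d : ℕ) (m : M), ∀ h ∈ 𝒜 (d, m), Dp (Dm h) - Dm (Dp h) = (c * d + θ m) • h)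
    (hyp : ∀ h, y (Dp h) = 0) (hym : ∀ h, y (Dm h) = 0) (hα : θ α ≠ 0)
    (hn : ∀ k : ℕ, 2 * θ χ + k * θ α ≠ 0) (hχ : TangentWeight 𝒜 y ν χ) :
    TangentWeight 𝒜 y ν (χ - α) := by
  have hdom := hX.domain
  -- the character of the fixed point
  have hc : c + θ ν = 0 := by
    obtain ⟨g, hg, hgy⟩ := exists_deg_one_ne hX.gen hy0 hy
    have h1 := congrArg y (hθ 1 ν g hg)
    rw [map_sub, hyp, hym, sub_zero, map_smul, smul_eq_mul, Nat.cast_one, mul_one] at h1
    exact (mul_eq_zero.1 h1.symm).resolve_right hgy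
  -- the commutator on tangent vectors of pure weight
  have hcomm : ∀ (ω : M) (v : R →ₗ[ℂ] ℂ), HasWeight 𝒜 ν ω v →
      (v.comp Dp.toLinearMap).comp Dm.toLinearMap =
        (v.comp Dm.toLinearMap).comp Dp.toLinearMap + θ ω • v := by
    intro ω v hw
    refine linearMap_ext_graded 𝒜 ?_
    rintro ⟨d, m⟩ h hh
    change v (Dp (Dm h)) = v (Dm (Dp h)) + θ ω * v h
    have h1 := congrArg v (hθ d m h hh)
    rw [map_sub, map_smul, smul_eq_mul, sub_eq_iff_eq_add] at h1
    rw [h1, add_comm]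
    congr 1
    by_cases h0 : v h = 0
    · rw [h0, mul_zero, mul_zero]
    · rw [hw d m h hh h0, map_add, map_nsmul, nsmul_eq_mul]
      linear_combination (d : ℂ) * v h * hc
  obtain ⟨v, hv, hw, hvne⟩ := hχ
  refine ⟨v.comp Dm.toLinearMap, isTangent_comp hv hym, ?_, ?_⟩
  · have h1 := hasWeight_comp hw hm
    rwa [← sub_eq_add_neg] at h1
  · by_contra hcon
    push Not at hcon
    obtain ⟨c', hc'⟩ := hcon
    -- the composition with `Dp` vanishes
    have h0 : (v.comp Dm.toLinearMap).comp Dp.toLinearMap = 0 := by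
      refine linearMap_ext_graded 𝒜 ?_
      rintro ⟨d, m⟩ h hh
      change (v.comp Dm.toLinearMap) (Dp h) = 0
      rw [hc' d (m - α) (Dp h) (hp d m h hh), hyp, mul_zero]
    -- the chain
    let w : ℕ → R →ₗ[ℂ] ℂ := fun k => Nat.rec v (fun _ x => x.comp Dp.toLinearMap) k
    have hw0 : w 0 = v := rfl
    have hws : ∀ k, w (k + 1) = (w k).comp Dp.toLinearMap := fun k => rfl
    have hwT : ∀ k, IsTangent y (w k) := by
      intro k
      induction k with
      | zero => exact hv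
      | succ k ih => exact isTangent_comp ih hyp
    have hwW : ∀ k : ℕ, HasWeight 𝒜 ν (χ + k • α) (w k) := by
      intro k
      induction k with
      | zero => rw [zero_smul, add_zero]; exact hw
      | succ k ih =>
        have h1 := hasWeight_comp ih hp
        rwa [add_assoc, ← succ_nsmul] at h1
    have hchain : ∀ k : ℕ, (w (k + 1)).comp Dm.toLinearMap =
        (((k : ℂ) + 1) / 2 * (2 * θ χ + k * θ α)) • w k := by
      intro k
      induction k with
      | zero =>
        rw [hws, hw0, hcomm χ v hw, h0, zero_add]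
        congr 1
        push_cast
        ring
      | succ k ih =>
        rw [hws, hcomm _ _ (hwW (k + 1)), ih]
        have h1 : ((((k : ℂ) + 1) / 2 * (2 * θ χ + k * θ α)) • w k).comp Dp.toLinearMap =
            (((k : ℂ) + 1) / 2 * (2 * θ χ + k * θ α)) • w (k + 1) := by
          rw [LinearMap.smul_comp, ← hws]
        rw [h1, ← add_smul, map_add, map_nsmul, nsmul_eq_mul]
        congr 1
        push_cast
        ring
    have hwne : ∀ k, w k ≠ 0 := by
      intro k
      induction k with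
      | zero =>
        intro h
        rw [hw0] at h
        obtain ⟨d, m, x, -, hx⟩ := hvne 0
        rw [h] at hx
        simp at hx
      | succ k ih =>
        intro h
        have h1 := hchain k
        rw [h, LinearMap.zero_comp] at h1
        have h2 : ((k : ℂ) + 1) / 2 * (2 * θ χ + k * θ α) ≠ 0 := by
          refine mul_ne_zero (div_ne_zero ?_ two_ne_zero) (hn k)
          exact_mod_cast Nat.succ_ne_zero k
        exact ih ((smul_eq_zero.1 h1.symm).resolve_left h2)
    have hinj : Function.Injective fun k : ℕ => ν + (χ + k • α) := by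
      intro a b hab
      have h1 : a • α = b • α := add_left_cancel (add_left_cancel hab)
      have h2 := congrArg θ h1
      rw [map_nsmul, map_nsmul, nsmul_eq_mul, nsmul_eq_mul] at h2
      exact_mod_cast mul_right_cancel₀ hα h2
    exact (Set.infinite_of_injective_forall_mem hinj
      (fun k => mem_wts_of_ne hX (hwT k) (hwW k) (hwne k))) (finite_weights hX)

/-- The opposite direction: `χ + α` is a tangent weight if `2 θ(χ) / θ(α)` is not a nonnegative
integer. -/
theorem tangentWeight_add (hX : IsTorusManifold 𝒜) {y : R →ₐ[ℂ] ℂ} {ν χ α : M}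
    (hy0 : ¬ IsVertex 𝒜 y) (hy : IsFixed 𝒜 y ν) {Dp Dm : Derivation ℂ R R}
    (hp : IsHField 𝒜 α Dp) (hm : IsHField 𝒜 (-α) Dm) {c : ℂ} {θ : M →+ ℂ}
    (hθ : ∀ (d : ℕ) (m : M), ∀ h ∈ 𝒜 (d, m), Dp (Dm h) - Dm (Dp h) = (c * d + θ m) • h)
    (hyp : ∀ h, y (Dp h) = 0) (hym : ∀ h, y (Dm h) = 0) (hα : θ α ≠ 0)
    (hn : ∀ k : ℕ, 2 * θ χ - k * θ α ≠ 0) (hχ : TangentWeight 𝒜 y ν χ) :
    TangentWeight 𝒜 y ν (χ + α) := by
  have h1 := tangentWeight_sub (α := -α) (Dp := Dm) (Dm := Dp) (c := -c) (θ := -θ) (χ := χ) hX hy0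
    hy hm (by rw [neg_neg]; exact hp) (fun d m h hh => by
      rw [AddMonoidHom.neg_apply, ← neg_sub, hθ d m h hh, ← neg_smul]
      congr 1
      ring) hym hyp (by
        rw [AddMonoidHom.neg_apply, map_neg, neg_neg]
        exact hα) (fun k h => hn k (by
        rw [AddMonoidHom.neg_apply, AddMonoidHom.neg_apply, map_neg, neg_neg] at h
        linear_combination -h)) hχ
  rwa [sub_neg_eq_add] at h1

/-- A field of weight `α` vanishes at a fixed point where `α` is not a weight, `α ≠ 0`. -/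
theorem field_eq_zero {y : R →ₐ[ℂ] ℂ} {ν α : M} (hy : IsFixed 𝒜 y ν) (hα : α ≠ 0)
    {D : Derivation ℂ R R} (hD : IsHField 𝒜 α D) (hn : ¬ TangentWeight 𝒜 y ν α) (h : R) :
    y (D h) = 0 := by
  have hw : HasWeight 𝒜 ν α (valAt y D) := by
    intro d m x hx hne
    have h1 := hy d (m - α) (D x) (hD d m x hx) hne
    rw [← h1, sub_add_cancel]
  have h1 : valAt y D = 0 := by
    refine linearMap_ext_graded 𝒜 ?_
    rintro ⟨d, m⟩ x hx
    by_contra hne
    exact hn (H587.tangentWeight_of_ne hy hα (isTangent_valAt y D) hw d m hx hne)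
  exact LinearMap.congr_fun h1 h

/-- **A root is realised at each fixed point where it is a weight.** -/
theorem exists_ne_of_root (hX : IsTorusManifold 𝒜)
    (hiso : ∀ (x : R →ₐ[ℂ] ℂ) (ν : M), ¬ IsVertex 𝒜 x → IsFixed 𝒜 x ν → ¬ TangentWeight 𝒜 x ν 0)
    {y : R →ₐ[ℂ] ℂ} {ν α : M} (hy0 : ¬ IsVertex 𝒜 y) (hy : IsFixed 𝒜 y ν)
    {Dp Dm : Derivation ℂ R R} (hp : IsHField 𝒜 α Dp) (hm : IsHField 𝒜 (-α) Dm) {c : ℂ}
    {θ : M →+ ℂ}
    (hθ : ∀ (d : ℕ) (m : M), ∀ h ∈ 𝒜 (d, m), Dp (Dm h) - Dm (Dp h) = (c * d + θ m) • h)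
    (hα : θ α ≠ 0) (hwt : TangentWeight 𝒜 y ν α) (hnwt : ¬ TangentWeight 𝒜 y ν (-α)) :
    ∃ h, y (Dp h) ≠ 0 := by
  by_contra hcon
  push Not at hcon
  have hα0 : -α ≠ 0 := by
    intro h
    rw [neg_eq_zero] at h
    rw [h, map_zero] at hα
    exact hα rfl
  have h1 := tangentWeight_sub hX hy0 hy hp hm hθ hcon (field_eq_zero hy hα0 hm hnwt) hα
    (χ := α) (fun k h => by
      have h2 : ((k : ℂ) + 2) * θ α = 0 := by linear_combination h
      rcases mul_eq_zero.1 h2 with h3 | h3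
      · have h4 : (k : ℂ) + 2 ≠ 0 := by
          exact_mod_cast Nat.succ_ne_zero (k + 1)
        exact h4 h3
      · exact hα h3) hwt
  rw [sub_self] at h1
  exact hiso y ν hy0 hy h1

end Vale.Agent.P280.H170
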